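import Vale.Agent.P014Y.F.Kg.Abs
import Vale.Agent.P014Y.F.Sys
import Vale.Agent.P004F.Kg.Bc
import Vale.Agent.P004F.Alg.Lam

/-! The rows `KG` and `ORD`. -/

set_option linter.all false

namespace Vale.Agent.P014Y.F.Kg
open Vale.Agent.P014U
open X4F.Pat (La)
open Matrix PowerSeries Submodule Set Function Module P004F.Alg P004F.Ch
open P004F.Kg (St gm gm_ρ st st_κ st_pr st_ok st_ex)

variable [Pp]

section gen
variable {R G σ : Type} (O : Type) [CommRing R] [CommRing O] [Algebra R O] [Group G]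

/-- the data without the divisibility -/
abbrev g1 (γ : Gl R G σ) : Gl R G σ := { γ with bv := 1 }

theorem au_map (γ : Gl R G σ) {D : Set G} {v : Fin 2 → R}
    (h : v ∈ span R {v | ∃ g ∈ D, ∃ i, v = (γ.ρ g - 1) i}) :
    algebraMap R O ∘ v ∈ P004F.Kg.Au (gm O γ).ρ D :=
  (span_le (p := ((P004F.Kg.Au (gm O γ).ρ D).restrictScalars R).comap
    ((Algebra.linearMap R O).compLeft _))).2 (by
    rintro _ ⟨g, hg, i, rfl⟩
    exact subset_span ⟨g, hg, i, by ext j; simp [gm_ρ, one_apply]⟩) h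

variable [Fintype σ] [DecidableEq σ] {γ : Gl R G σ} {p q : Pk R G σ}

theorem ok1 (h : Ok γ p) : p.Ok (g1 γ) :=
  ⟨h.coc, h.gen, h.lu, h.sv, h.sp, h.fH, h.sH, h.kr, h.ks, h.kf, h.r1, h.r0, fun _ => one_dvd _⟩

theorem okp [IsDomain O] (h : Ok γ p) {η : R} (i : p.Iso γ η) (hη : IsUnit (algebraMap R O η))
    (h2 : IsUnit (2 : O)) (hp : IsUnit (pp : O)) : (st O (ok1 h)).Ok (gm O γ) :=
  { st_ok (ok1 h) i hη h2 with
    dv := fun n => (hp.pow γ.c).dvd_mul_left.1 (by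
      have := map_dvd (algebraMap R O) (h.dv n)
      rwa [map_mul, map_pow, map_natCast, ← st_κ (ok1 h)] at this) }

omit [Pp] in
/-- the extension for the data without the divisibility -/
def ex1 {g : G} (E : p.Ext γ q g) : p.Ext (g1 γ) q g :=
  ⟨E.e, E.A, E.ker, E.u, E.t, E.m, E.f, E.s, E.new, E.κ⟩

end gen

variable (S : Sys) (π : La) [hπ : Fact (Prime π)]

theorem two : IsUnit (2 : Lc π) := by
  have := (unit_two.map (C (R := ℤ_[pp]))).map (algebraMap La (Lc π))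
  rwa [map_ofNat, map_ofNat] at this

theorem sj {N} (h : F.Sj π N) : P004F.Kg.Sj (N.map (algebraMap La (Lc π))) := by
  obtain ⟨N', η, h3, h4⟩ := h
  refine ⟨N'.map (algebraMap La _), _, (Lc.unit π).2 h3, ?_⟩
  rw [← Matrix.map_mul, h4]; ext; simp [one_apply, apply_ite (algebraMap La (Lc π))]

variable (h2 : ¬ π ∣ (pp : La))
include h2

theorem up : IsUnit (pp : Lc π) := map_natCast (algebraMap La (Lc π)) pp ▸ (Lc.unit π).2 h2

theorem cb0 : Cb0 (gm (Lc π) S.γ).ρ S.γ.H S.θ := by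
  refine ⟨map_mul _, fun g h a => S.nH.conj_mem h a g, fun h a => by simp [gm, S.ρH h a], S.θH,
    eq_top_iff.2 fun B _ => matrix_eq_sum_single B ▸ sum_mem fun i _ => sum_mem fun j _ => ?_⟩
  have := (span_le (p := ((span (Lc π) (range (gm (Lc π) S.γ).ρ)).restrictScalars La).comap
    (Algebra.linearMap La (Lc π)).mapMatrix)).2 (by rintro _ ⟨g, rfl⟩; exact subset_span ⟨g, rfl⟩)
    (S.spn (single i j 1))
  obtain ⟨w, hw⟩ := ((up π h2).pow S.γ.c).exists_left_inv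
  refine (congrArg (· ∈ _) ?_).mp (smul_mem _ (B i j * w) (show _ ∈ span (Lc π) _ from this))
  simp [mul_assoc, hw]

variable (h : ¬ π ∣ S.ϖ)
include h

theorem cb : ∃ τ u u', Cb (gm (Lc π) S.γ).ρ S.γ.H S.θ τ u u' := by
  obtain ⟨g, a, a', h3, h4, h5⟩ := S.gen
  refine ⟨g, algebraMap La _ a, algebraMap La _ a', cb0 S π h2, ?_, ?_, ?_⟩
  · ext; simp [gm_ρ, h3, one_apply, apply_ite (algebraMap La (Lc π))]
  · ext; simp [gm_ρ, h4, one_apply, apply_ite (algebraMap La (Lc π))]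
  · exact map_sub (algebraMap La (Lc π)) a a' ▸ (Lc.unit π).2 fun e =>
      (hπ.1.dvd_or_dvd (h5 π hπ.1 e)).elim h2 h

theorem sy : Sy (gm (Lc π) S.γ) S.θ {q | ∃ p, ∃ h : p ∈ S.𝒮, q = st (Lc π) (ok1 (S.ok p h))}
    (st (Lc π) (ok1 (S.ok _ S.mem))) (algebraMap La _ (S.o.Mx S.γ).det) (algebraMap La _ S.β) where
  cb := cb0 S π h2
  ni := (cb S π h2 h).choose_spec.choose_spec.choose_spec.ni
  two := two π
  sah := by
    obtain ⟨z, a, h3, h4, h5⟩ := S.sah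
    refine ⟨z, algebraMap La _ a, ?_, ?_, h5⟩
    · ext; simp [gm_ρ, h3, one_apply, apply_ite (algebraMap La (Lc π))]
    · have := (Lc.unit π).2 fun e => (hπ.1.dvd_or_dvd (h4 π hπ.1 e)).elim h2 h
      rwa [map_sub, map_one] at this
  bv := Lc.ne π S.bv0
  av := by
    obtain ⟨A, h3, h4⟩ := S.av
    refine ⟨A.map (algebraMap La _), fun i => au_map _ _ (h3 i), ((up π h2).pow S.γ.c).dvd_mul_left.1 ?_⟩
    have := map_dvd (algebraMap La (Lc π)) h4
    rwa [map_mul, map_pow, map_natCast, RingHom.map_det] at this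
  ap x := by
    obtain ⟨E, h3, h4⟩ := S.ap x
    exact ⟨E.map (algebraMap La _), (RingHom.map_det (algebraMap La (Lc π)) E ▸ h3.map _ :), fun i =>
      (congrArg (· ∈ _) (congrFun (Matrix.map_mul (f := algebraMap La (Lc π))) i)).mp (au_map _ _ (h4 i))⟩
  be := ⟨S.gs, S.is, S.gv, by
    rw [S.βe, RingHom.map_det]
    congr 1; ext k j
    refine Fin.lastCases ?_ (fun j => ?_) j <;> simp [gm, one_apply, -Fin.reduceLast]⟩
  β0 := Lc.ne π S.β0
  ok := by
    obtain ⟨η, h3, h4⟩ := S.iso π hπ.1 h2 h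
    rintro _ ⟨p, h, rfl⟩
    exact okp _ (S.ok p h) (h4 p h) ((Lc.unit π).2 h3) (two π) (up π h2)
  cl := by
    rintro _ ⟨p, h, rfl⟩ a ha
    obtain ⟨q, h', ⟨E⟩⟩ := S.ext p h a ha
    exact ⟨_, ⟨q, h', rfl⟩, st_ex _ _ (ex1 E)⟩
  mem := ⟨_, S.mem, rfl⟩
  pr := st_pr (ok1 (S.ok _ S.mem))
  D0 := Lc.ne π fun e => S.mu (by simp [e])

theorem dv : algebraMap La (Lc π) (S.o.Mx S.γ).det ∣
    algebraMap La _ (S.o.t ⬝ᵥ S.o.κ ∅) ^ 2 := by
  obtain ⟨τ, u, u', B⟩ := cb S π h2 h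
  have e := st_κ (O := Lc π) (ok1 (S.ok _ S.mem)) ∅ S.o.t
  have h0 := e ▸ Lc.ne π S.an
  rcases S.sep π hπ.1 h2 h with s | ⟨s, x, ⟨i, j, s1⟩, s2⟩
  · exact e ▸ (sy S π h2 h).left (Lc.irr π) B h0 fun x => sj π (s x)
  · exact e ▸ (sy S π h2 h).right (Lc.irr π) B h0 ((Lc.unit π).2 s) (fun y a => sj π (s2 y a))
      ((Lc.unit π).2 s1)

end Vale.Agent.P014Y.F.Kg

namespace Vale.Agent.P014Y.F
open Vale.Agent.P014U
open X4F.Pat (La)
open PowerSeries P004F.Alg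

variable [Pp]

theorem Kg.toZMod_zero (x : ℤ_[pp]) : PadicInt.toZMod x = 0 ↔ (pp : ℤ_[pp]) ∣ x := by
  rw [← RingHom.mem_ker, PadicInt.ker_toZMod, PadicInt.maximalIdeal_eq_span_p,
    Ideal.mem_span_singleton]

/-- divisibility from the primes which divide neither `p` nor `ϖ` -/
theorem Kg.glue {D E ϖ : La} (mu : map PadicInt.toZMod D ≠ 0)
    (h0 : ∀ π : La, Prime π → π ∣ ϖ → ¬ π ∣ D)
    (h : ∀ (π : La) [Fact (Prime π)], ¬ π ∣ (pp : La) → ¬ π ∣ ϖ →
      algebraMap La (Lc π) D ∣ algebraMap La (Lc π) E) : D ∣ E := by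
  refine (UniqueFactorizationMonoid.dvd_iff_emultiplicity_le (fun e => mu (by simp [e]))).2
    fun π hπ => emultiplicity_le_emultiplicity_iff.2 fun n hn => ?_
  rcases n with _ | n
  · simp
  have a1 : π ∣ D := (dvd_pow_self π n.succ_ne_zero).trans hn
  have := Fact.mk hπ
  refine Lc.pow_dvd π (h π ?_ fun e => h0 π hπ e a1) _ hn
  refine map_natCast (C (R := ℤ_[pp])) pp ▸ ndvd PadicInt.toZMod (Nat.cast_ne_zero.2 pp_ne)
    Kg.toZMod_zero hπ fun e => mu ?_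
  obtain ⟨c, hc⟩ := a1
  rw [hc, map_mul, e, zero_mul]

theorem kg : KG := fun S h0 =>
  Kg.glue S.mu h0 fun π _ h2 h => (map_pow (algebraMap La (Lc π)) _ 2).symm ▸ Kg.dv S π h2 h

theorem ord : ORD := by
  rintro D Θ l ⟨c, hc⟩ h
  have k : ∀ n, X ^ n ∣ map PadicInt.toZMod Θ ^ 2 → n ≤ 2 * l := fun n e => by
    rw [X_pow_dvd, not_le] at h
    rw [X_pow_dvd, order_pow, nsmul_eq_mul] at e
    have : (n : ℕ∞) ≤ 2 * l := e.trans (by
      push_cast at h ⊢; gcongr; exact Order.le_of_lt_add_one h)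
    exact_mod_cast this
  have e : map PadicInt.toZMod Θ ^ 2 = map PadicInt.toZMod D * map PadicInt.toZMod c := by
    rw [← map_pow, hc, map_mul]
  refine ⟨fun a => absurd (k _ (e ▸ a.mul_right _)) (by omega), fun a => ?_⟩
  have u : IsUnit c := by
    rw [isUnit_iff_constantCoeff]
    by_contra n
    have x : X ∣ map PadicInt.toZMod c := by
      rw [X_dvd_iff, ← coeff_zero_eq_constantCoeff_apply, coeff_map,
        coeff_zero_eq_constantCoeff_apply, ← RingHom.mem_ker, PadicInt.ker_toZMod]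
      exact n
    exact absurd (k (2 * l + 1) (e ▸ pow_succ (X : (ZMod pp)⟦X⟧) _ ▸ mul_dvd_mul a x)) (by omega)
  rw [hc]
  exact u.mul_right_dvd.2 dvd_rfl

end Vale.Agent.P014Y.F
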