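import Vale.Agent.P004F.Kg.Abs

/-! The Kolyvagin argument for abstract stages; the central element acts by any scalar. -/

set_option linter.all false

namespace Vale.Agent.P014Y.F.Kg
open Vale.Agent.P004F
open Matrix Submodule Set Function Module Alg Ch Alg.Kb
open P004F.Kg hiding Sy

variable {O G σ : Type} [CommRing O] [Group G] {θ : G →* G} {𝒮 : Set (St O G σ)}

/-- the system over a discrete valuation ring -/
structure Sy (γ : Gl O G σ) (θ : G →* G) (𝒮 : Set (St O G σ)) (o : St O G σ) (D β : O) : Prop where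
  cb : Cb0 γ.ρ γ.H θ
  ni : Ni γ.ρ θ
  two : IsUnit (2 : O)
  sah : ∃ z, ∃ u : O, γ.ρ z = u • 1 ∧ IsUnit (u - 1) ∧ ∀ g, z * g * z⁻¹ * g⁻¹ ∈ γ.H
  bv : γ.bv ≠ 0
  av : ∃ B : Matrix (Fin 2) (Fin 2) O, (∀ i, B i ∈ Au γ.ρ γ.Dv) ∧ B.det ∣ γ.bv
  ap : ∀ x, ∃ E, Ap γ.ρ (γ.D x) (γ.N x) E
  be : Be γ.ρ γ.Dv γ.e β
  β0 : β ≠ 0
  ok : ∀ p ∈ 𝒮, p.Ok γ
  cl : Cl γ.H θ 𝒮
  mem : o ∈ 𝒮
  pr : Pr o.W D
  D0 : D ≠ 0

namespace Sy
variable {γ : Gl O G σ} {o p : St O G σ} {D β : O} (S : Sy γ θ 𝒮 o D β)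
include S

theorem m0 (h : p.Ok γ) (F : Y O γ.H p.u ≤ p.N) : ∃ w : Fin 2 → p.X ⧸ p.N,
    (∀ g i, p.N.mkQ (p.u g i) = ∑ j, γ.ρ g i j • w j - w i) ∧
    ∀ g ∈ γ.Dv, ∀ i, ∑ j, γ.ρ g i j • w j - w i = 0 := by
  obtain ⟨z, u, h1, h3, h2⟩ := S.sah
  obtain ⟨m, hm⟩ := Ch.sah h.co S.cb h1 h3 h2
  have e : ∀ g i, p.N.mkQ (p.u g i) = ∑ j, γ.ρ g i j • p.N.mkQ (m j) - p.N.mkQ (m i) := fun g i => by
    simpa only [map_sub, map_sum, map_smul, sub_eq_zero] using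
      (show p.N.mkQ _ = 0 from (Quotient.mk_eq_zero _).2 (F (hm g i)))
  exact ⟨_, e, fun g hg i => by rw [← e, h.sv g hg]; exact (Quotient.mk_eq_zero _).2 (smul_mem _ _ mt)⟩

theorem nu (h : p.Ok γ) (F : Y O γ.H p.u ≤ p.N) (s : ∀ x, Sj (γ.N x)) {B : Matrix (Fin 2) (Fin 2) O}
    (hB : ∀ i, B i ∈ Au γ.ρ γ.Dv) : Dt (p.X ⧸ p.N) B.det := by
  obtain ⟨w, h1, h2⟩ := S.m0 h F
  have k : ∀ i, w i ∈ span O (range w) := fun i => subset_span ⟨i, rfl⟩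
  refine ⟨_, inferInstance, inferInstance, w, B, ?_, fun i => au h2 (hB i), rfl⟩
  rw [← map_comap_eq_of_surjective p.N.mkQ_surjective (span O (range w)), h.gen (comap _ _)
    (fun g i => ?_) ?_ fun x i => ?_, Submodule.map_top, range_mkQ] <;> rw [mem_comap]
  · exact (show p.N.mkQ _ = 0 from (Quotient.mk_eq_zero _).2 mt) ▸ zero_mem _
  · exact h1 g i ▸ sub_mem (sum_mem fun j _ => smul_mem _ _ (k j)) (k i)
  · obtain ⟨E, a⟩ := S.ap x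
    refine sub_eq_zero.1 (a.z (s x) (w := fun i => p.N.mkQ (p.m x i) - w i) (fun g hg i => ?_) i) ▸ k i
    have := h1 g i
    simp only [h.sp x g hg, map_sub, map_sum, map_smul] at this
    simp only [smul_sub, Finset.sum_sub_distrib]
    linear_combination (norm := abel) this

theorem sv (h : p.Ok γ) {M : Type} [AddCommGroup M] [Module O M] (κ : p.X →ₗ[O] M)
    (n : ∀ x : M, β • x = 0 → x = 0) (k : κ p.t ≠ 0) : ∃ y ∈ Y O γ.H p.u, κ y ≠ 0 :=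
  let ⟨_, _, h1, h3, h2⟩ := S.sah
  Ch.gen h.co S.cb h1 h3 h2 h.sv κ
    (fun x _ e => n x (S.be.k e).1) k

variable [IsDomain O] [IsDiscreteValuationRing O] {ϖ : O}

omit [IsDiscreteValuationRing O] in
theorem nz (h : p.Ok γ) {m} (k : p.κ m p.t ≠ 0 ∨ ∃ j, p.κ m (p.s j) ≠ 0) :
    ∃ y ∈ Y O γ.H p.u, p.κ m y ≠ 0 :=
  k.elim (S.sv h _ fun _ e => (smul_eq_zero.1 e).resolve_left S.β0) fun ⟨j, e⟩ => ⟨_, h.sH j, e⟩

theorem cy (h : p.Ok γ) (F : Y O γ.H p.u ≤ p.N) (P : Pr p.W D) (hβ : IsUnit β) {x i j c b r c'}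
    (s : ∀ y, y ≠ x → Sj (γ.N y)) (h0 : IsUnit (γ.N x i j)) (h1 : c (Fin.rev i) = 1)
    (h2 : b • r = c ᵥ* γ.N x) (h3 : γ.N x *ᵥ c' = Pi.single i.rev b) : ∃ η z, Cy p.t p.f p.s b η z := by
  obtain ⟨w, k1, k2⟩ := S.m0 h F
  have hu : ∀ g i, p.u g i ∈ p.N := fun g i => by
    have := (S.be.k (x := 0) (w := w) fun g hg i => by rw [k2 g hg, smul_zero]).2
    simp only [hβ.smul_eq_zero] at this
    exact (Quotient.mk_eq_zero _).1 ((k1 g i).trans (by simp [this]))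
  have q : ∀ N ≥ p.N, ∀ y, ∀ g ∈ γ.D y, ∀ i, ∑ j, γ.ρ g i j • N.mkQ (p.m y j) - N.mkQ (p.m y i) = 0 :=
    fun N hN y g hg i => by
      simpa only [h.sp y g hg, map_sub, map_sum, map_smul] using
        (show N.mkQ _ = 0 from (Quotient.mk_eq_zero _).2 (hN (hu g i)))
  obtain ⟨E, a⟩ := S.ap x
  refine ⟨∑ k, E i.rev k • p.m x k, ∑ k, r k • p.l x k, h.gen _ (fun g i => mem_sup_left (hu g i))
    (mem_sup_left mt) fun y k => (Quotient.mk_eq_zero _).1 ?_, (Quotient.mk_eq_zero _).1 ?_,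
    sum_mem fun k _ => smul_mem _ _ (h.lu _ hu x k), ⟨b, fun e => ?_, ?_⟩,
    fun a e => by simpa [h1] using h.ord D S.D0 P x c r b a h2 e i.rev⟩
  · by_cases e : y = x
    swap
    · exact (S.ap y).choose_spec.z (s y e) (q _ le_sup_left y) k
    subst e
    set N := p.N ⊔ span O {∑ k, E i.rev k • p.m y k}
    have z : ∑ k, E i.rev k • N.mkQ (p.m y k) = 0 := by
      simpa only [map_sum, map_smul] using (show N.mkQ _ = 0 from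
        (Quotient.mk_eq_zero _).2 (mem_sup_right (mem_span_singleton_self _)))
    have := a.k (q N le_sup_left y) (Pi.single j 1)
    rw [sum2 i, z, smul_zero, add_zero, mulVec_single_one, col_apply, h0.smul_eq_zero] at this
    refine a.1.smul_eq_zero.1 (dk (y := fun k => N.mkQ (p.m y k)) (fun i' => ?_) k)
    obtain rfl | rfl : i' = i ∨ i' = i.rev := by fin_cases i' <;> fin_cases i <;> simp
    exacts [this, z]
  · have := a.k (q _ le_rfl x) c'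
    rw [h3] at this
    simpa [Pi.single_apply, -Fin.sum_univ_two, ← mkQ_apply] using this
  · simpa [h1, e] using h.ord D S.D0 P x c 0 b 1 (by rw [← h2, e]; simp) (by simp) i.rev
  · simp only [Finset.smul_sum, ← mul_smul, show ∀ k, b * r k = _ from congrFun h2]
    simp only [vecMul, dotProduct, Finset.sum_smul, mul_smul]
    rw [Finset.sum_comm]
    simp only [← Finset.smul_sum, h.rel, smul_zero, Finset.sum_const_zero]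

theorem red : ∃ 𝒯 : Set (St O G σ), Cl γ.H θ 𝒯 ∧ 𝒯.Nonempty ∧ ∀ p ∈ 𝒯, p.Ok γ ∧ Y O γ.H p.u ≤ p.N ∧
    Nonempty (o.W ≃ₗ[O] p.W) ∧ p.κ ∅ p.t = o.κ ∅ o.t := by
  have c := S.cl.sub (fun p => Nonempty (o.W ≃ₗ[O] p.W) ∧ p.κ ∅ p.t = o.κ ∅ o.t)
    fun p q g E ⟨⟨e⟩, h⟩ => ⟨⟨e.trans E.w.some.symm⟩, by
      simpa [E.t, h] using LinearMap.congr_fun (E.κ ∅) q.t⟩
  have := (S.ok o S.mem).fin
  obtain ⟨p, h1, h2⟩ := c.full S.cb S.ni (fun p hp => (S.ok p hp.1).co) ⟨S.mem, ⟨.refl _ _⟩, rfl⟩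
  exact ⟨_, c.sub (fun p => Y O γ.H p.u ≤ p.N) fun p q g E => E.full, ⟨p, h1, h2⟩,
    fun p hp => ⟨S.ok p hp.1.1, hp.2, hp.1.2⟩⟩

variable (hϖ : Irreducible ϖ)
include hϖ

variable {τ : G} {u u' : O} (B : Cb γ.ρ γ.H θ τ u u') (h0 : o.κ ∅ o.t ≠ 0)
include B h0

theorem left (s : ∀ x, Sj (γ.N x)) : D ∣ o.κ ∅ o.t ^ 2 := by
  obtain ⟨𝒯, c, ⟨p, hp⟩, h⟩ := S.red
  obtain ⟨A, h1, h2⟩ := S.av
  have hb := ne_zero_of_dvd_ne_zero S.bv h2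
  rw [← (h p hp).2.2.2] at h0 ⊢
  refine kol (St.toStg '' 𝒯) ?_ S.D0 hb S.two.ne_zero hϖ ?_ ⟨p, hp, rfl⟩ h0
  · rintro _ ⟨p, hp, rfl⟩
    obtain ⟨k, F, ⟨e⟩, -⟩ := h p hp
    exact ⟨⟨k.fin, k.rk, k.iso, ⟨D, .refl _, S.pr.equiv e⟩, S.nu k F s h1⟩, k.ks, k.kf, k.r1, k.r0,
      fun m => h2.trans (k.dv m)⟩
  rintro _ ⟨p, hp, rfl⟩ m g g' g0 g0' a1 a2 a3
  obtain ⟨k, F, -⟩ := h p hp
  obtain ⟨a, ha, k1⟩ := ch (k.co.ad S.cb) B hb hϖ.prime ((unit_of hϖ).1 S.two) g g' (p.κ m)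
    (fun y hy => ⟨dvd_NN (g0 ▸ dvd_zero _) (fun j => (a1 j).1) (fun j => (a1 j).2.1) (F hy),
      dvd_NN (g0' ▸ dvd_zero _) (fun j => (a1 j).2.2.1) (fun j => (a1 j).2.2.2) (F hy)⟩)
    (fun x y e => a2 x y (fun j => e _ (k.fH j)) fun j => e _ (k.sH j)) (S.nz k a3)
  obtain ⟨q, hq, ⟨E⟩⟩ := c p hp a ha
  exact ⟨_, ⟨q, hq, rfl⟩, E.ext fun i => F (mem_Y _ (S.cb.ko_mem ha) i),
    by simpa only [Ex.ext, E.new] using k1⟩

theorem right (hβ : IsUnit β) {x i j} (s : ∀ y, y ≠ x → Sj (γ.N y)) (h1 : IsUnit (γ.N x i j)) :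
    D ∣ o.κ ∅ o.t ^ 2 := by
  obtain ⟨𝒯, c, ⟨p, hp⟩, h⟩ := S.red
  obtain ⟨c0, b, r, c', b1, b2, b3⟩ := piv h1
  have hb : b ≠ 0 := fun e => by
    simpa [b1, e] using (S.ok o S.mem).ord D S.D0 S.pr x c0 0 b 1 (by rw [← b2, e]; simp) (by simp) i.rev
  rw [← (h p hp).2.2.2] at h0 ⊢
  refine kolB (St.toStg '' 𝒯) ?_ S.D0 hb S.two hϖ ?_ ⟨p, hp, rfl⟩ h0
  · rintro _ ⟨p, hp, rfl⟩
    obtain ⟨k, F, ⟨e⟩, -⟩ := h p hp
    exact ⟨k.toEs, k.fin, k.rk, ⟨D, .refl _, S.pr.equiv e⟩, S.cy k F (S.pr.equiv e) hβ s h1 b1 b2 b3⟩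
  rintro _ ⟨p, hp, rfl⟩ m g g' a1 a2 a3
  obtain ⟨k, F, -⟩ := h p hp
  have t : p.t ∈ Y O γ.H p.u := by
    by_contra e
    obtain ⟨y, hy, e⟩ := S.sv k (mkQ _) (fun _ => hβ.smul_eq_zero.1) (mt (Quotient.mk_eq_zero _).1 e)
    exact e ((Quotient.mk_eq_zero _).2 hy)
  obtain ⟨a, ha, k1⟩ := chB (k.co.ad S.cb) B hb hϖ.prime ((unit_of hϖ).1 S.two) g g' (p.κ m)
    (fun y hy => a1 y (F hy)) (fun x y e => a2 x y fun z hz => e z (NN_le t k.fH k.sH hz)) (S.nz k a3)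
  obtain ⟨q, hq, ⟨E⟩⟩ := c p hp a ha
  have n := fun i => F (mem_Y _ (S.cb.ko_mem ha) i)
  exact ⟨_, ⟨q, hq, rfl⟩, E.ext n, E.int n, by simpa only [Ex.ext, E.new] using k1⟩

end Sy

end Vale.Agent.P014Y.F.Kg
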